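import Mathlib

/-!
P036: Heilbronn's triangle problem for point sets on short paths or on few monotone chains.
-/

namespace Vale.Agent.Results.P036.ChainsAndPaths

/-- the area of the triangle `p q r` in the plane -/
noncomputable def area (p q r : EuclideanSpace ℝ (Fin 2)) : ℝ :=
  |(q 0 - p 0) * (r 1 - p 1) - (q 1 - p 1) * (r 0 - p 0)| / 2

/-- `Delta P`, the minimum of the areas of the triangles with three distinct vertices in `P` -/
noncomputable def Delta (P : Finset (EuclideanSpace ℝ (Fin 2))) : ℝ :=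
  sInf {a | ∃ p ∈ P, ∃ q ∈ P, ∃ r ∈ P, p ≠ q ∧ p ≠ r ∧ q ≠ r ∧ a = area p q r}

/-- `C` is a monotone chain: an increasing one, or a decreasing one -/
def MonotoneChain (C : Set (EuclideanSpace ℝ (Fin 2))) : Prop :=
  (∀ p ∈ C, ∀ q ∈ C, (p 0 ≤ q 0 ∧ p 1 ≤ q 1) ∨ (q 0 ≤ p 0 ∧ q 1 ≤ p 1)) ∨
    (∀ p ∈ C, ∀ q ∈ C, (p 0 ≤ q 0 ∧ q 1 ≤ p 1) ∨ (q 0 ≤ p 0 ∧ p 1 ≤ q 1))

/-- the points of `P`, enumerated in a suitable order without repetition, form a polygonal path
of length at most `L` -/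
def PathThrough (P : Finset (EuclideanSpace ℝ (Fin 2))) (L : ℝ) : Prop :=
  ∃ p : ℕ → EuclideanSpace ℝ (Fin 2), (∀ i < P.card, p i ∈ P) ∧
    (∀ i < P.card, ∀ j < P.card, p i = p j → i = j) ∧
    ∑ i ∈ Finset.range (P.card - 1), dist (p i) (p (i + 1)) ≤ L

/-- `P` is covered by `k` monotone chains -/
def ChainCover (P : Finset (EuclideanSpace ℝ (Fin 2))) (k : ℕ) : Prop :=
  ∃ C : Fin k → Set (EuclideanSpace ℝ (Fin 2)), (∀ j, MonotoneChain (C j)) ∧
    ∀ x ∈ P, ∃ j, x ∈ C j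

/-- `P` lies in the unit square -/
def InSquare (P : Finset (EuclideanSpace ℝ (Fin 2))) : Prop :=
  ∀ x ∈ P, ∀ i, 0 ≤ x i ∧ x i ≤ 1

theorem delta_le {P : Finset (EuclideanSpace ℝ (Fin 2))} {p q r : EuclideanSpace ℝ (Fin 2)}
    (hp : p ∈ P) (hq : q ∈ P) (hr : r ∈ P) (h1 : p ≠ q) (h2 : p ≠ r) (h3 : q ≠ r) :
    Delta P ≤ area p q r := by
  refine csInf_le ⟨0, ?_⟩ ⟨p, hp, q, hq, r, hr, h1, h2, h3, rfl⟩
  rintro a ⟨p, _, q, _, r, _, _, _, _, rfl⟩
  unfold area
  positivity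

theorem area_le (p q r : EuclideanSpace ℝ (Fin 2)) :
    area p q r ≤ (dist p q + dist q r) ^ 2 / 8 := by
  have h1 : dist p q ^ 2 = (p 0 - q 0) ^ 2 + (p 1 - q 1) ^ 2 := by
    rw [EuclideanSpace.dist_eq, Real.sq_sqrt (by positivity), Fin.sum_univ_two, Real.dist_eq,
      Real.dist_eq, sq_abs, sq_abs]
  have h2 : dist q r ^ 2 = (q 0 - r 0) ^ 2 + (q 1 - r 1) ^ 2 := by
    rw [EuclideanSpace.dist_eq, Real.sq_sqrt (by positivity), Fin.sum_univ_two, Real.dist_eq,
      Real.dist_eq, sq_abs, sq_abs]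
  have h3 : |(q 0 - p 0) * (r 1 - p 1) - (q 1 - p 1) * (r 0 - p 0)| ≤ dist p q * dist q r := by
    apply abs_le_of_sq_le_sq _ (by positivity)
    rw [mul_pow, h1, h2]
    nlinarith [sq_nonneg ((p 0 - q 0) * (q 0 - r 0) + (p 1 - q 1) * (q 1 - r 1))]
  unfold area
  nlinarith [sq_nonneg (dist p q - dist q r)]

/-- points on a short path -/
theorem path (P : Finset (EuclideanSpace ℝ (Fin 2))) (n : ℕ) (hn : 3 ≤ n)
    (p : ℕ → EuclideanSpace ℝ (Fin 2)) (hp : ∀ i < n, ∀ j < n, p i = p j → i = j)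
    (hP : ∀ i < n, p i ∈ P) (L : ℝ)
    (hL : ∑ i ∈ Finset.range (n - 1), dist (p i) (p (i + 1)) ≤ L) :
    Delta P ≤ 9 / 2 * (L / n) ^ 2 := by
  obtain ⟨m, rfl⟩ : ∃ m, n = m + 3 := ⟨n - 3, by omega⟩
  have h1 : m + 3 - 1 = (m + 1) + 1 := by omega
  rw [h1] at hL
  have hs : ∑ i ∈ Finset.range (m + 1), (dist (p i) (p (i + 1)) + dist (p (i + 1)) (p (i + 2))) ≤
      2 * L := by
    rw [Finset.sum_add_distrib]
    have e1 : ∑ i ∈ Finset.range (m + 1), dist (p i) (p (i + 1)) ≤ L := by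
      rw [Finset.sum_range_succ] at hL
      have := dist_nonneg (x := p (m + 1)) (y := p (m + 1 + 1))
      linarith
    have e2 : ∑ i ∈ Finset.range (m + 1), dist (p (i + 1)) (p (i + 2)) ≤ L := by
      rw [Finset.sum_range_succ'] at hL
      have := dist_nonneg (x := p 0) (y := p (0 + 1))
      linarith
    linarith
  obtain ⟨i, hi, hle⟩ : ∃ i ∈ Finset.range (m + 1),
      dist (p i) (p (i + 1)) + dist (p (i + 1)) (p (i + 2)) ≤ 2 * L / (m + 1) := by
    by_contra hcon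
    push Not at hcon
    have := Finset.sum_lt_sum_of_nonempty (s := Finset.range (m + 1)) ⟨0, by simp⟩ hcon
    rw [Finset.sum_const, Finset.card_range, nsmul_eq_mul] at this
    have e : ((m + 1 : ℕ) : ℝ) * (2 * L / (m + 1)) = 2 * L := by
      push_cast
      field_simp
    rw [e] at this
    linarith
  rw [Finset.mem_range] at hi
  have hd : Delta P ≤ area (p i) (p (i + 1)) (p (i + 2)) := by
    apply delta_le (hP _ (by omega)) (hP _ (by omega)) (hP _ (by omega))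
    · intro h; have := hp _ (by omega) _ (by omega) h; omega
    · intro h; have := hp _ (by omega) _ (by omega) h; omega
    · intro h; have := hp _ (by omega) _ (by omega) h; omega
  refine hd.trans ((area_le _ _ _).trans ?_)
  have h0 : 0 ≤ dist (p i) (p (i + 1)) + dist (p (i + 1)) (p (i + 2)) := by positivity
  have hL0 : 0 ≤ L := by
    refine le_trans ?_ hL
    exact Finset.sum_nonneg fun i _ => dist_nonneg
  have h2 : 2 * L / (m + 1) ≤ 6 * L / ((m + 3 : ℕ) : ℝ) := by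
    rw [div_le_div_iff₀ (by positivity) (by positivity)]
    push_cast
    have : 0 ≤ L * m := by positivity
    nlinarith
  have h3 := pow_le_pow_left₀ h0 (hle.trans h2) 2
  calc (dist (p i) (p (i + 1)) + dist (p (i + 1)) (p (i + 2))) ^ 2 / 8
      ≤ (6 * L / ((m + 3 : ℕ) : ℝ)) ^ 2 / 8 := by linarith
    _ = 9 / 2 * (L / ((m + 3 : ℕ) : ℝ)) ^ 2 := by ring

theorem idx (N : ℕ) (hN : 1 ≤ N) (s t : ℝ) (hs0 : 0 ≤ s) (hs : s ≤ 2) (ht0 : 0 ≤ t) (ht : t ≤ 2)
    (h : min ⌊s * N / 2⌋₊ (N - 1) = min ⌊t * N / 2⌋₊ (N - 1)) : |s - t| ≤ 2 / N := by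
  have hNr : (0 : ℝ) < N := by exact_mod_cast (by omega : 0 < N)
  have key : ∀ s t : ℝ, 0 ≤ s → s ≤ 2 → 0 ≤ t → t ≤ 2 →
      min ⌊s * N / 2⌋₊ (N - 1) = min ⌊t * N / 2⌋₊ (N - 1) → s - t ≤ 2 / N := by
    intro s t hs0 hs ht0 ht h
    rw [le_div_iff₀ hNr]
    by_contra hcon
    push Not at hcon
    have h1 : t * N / 2 + 1 < s * N / 2 := by linarith
    have h2 : ⌊t * N / 2⌋₊ + 1 ≤ ⌊s * N / 2⌋₊ := by
      rw [Nat.le_floor_iff (by positivity)]
      push_cast
      have := Nat.floor_le (a := t * N / 2) (by positivity)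
      linarith
    have h3 : ¬ (N - 1 ≤ ⌊t * N / 2⌋₊) := by
      intro h4
      have h5 := Nat.floor_le (a := t * N / 2) (by positivity)
      have h6 : ((N - 1 : ℕ) : ℝ) ≤ (⌊t * N / 2⌋₊ : ℝ) := by exact_mod_cast h4
      rw [Nat.cast_sub hN, Nat.cast_one] at h6
      have h7 : s * N / 2 ≤ N := by nlinarith
      linarith
    rw [min_eq_left (by omega : ⌊t * N / 2⌋₊ ≤ N - 1)] at h
    rcases le_total ⌊s * N / 2⌋₊ (N - 1) with h8 | h8
    · rw [min_eq_left h8] at h; omega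
    · rw [min_eq_right h8] at h; omega
  rw [abs_le]
  constructor
  · have := key t s ht0 ht hs0 hs h.symm
    linarith
  · exact key s t hs0 hs ht0 ht h

/-- a monotone coordinate along a chain -/
theorem chain_coord (C : Set (EuclideanSpace ℝ (Fin 2))) (hC : MonotoneChain C) :
    ∃ t : EuclideanSpace ℝ (Fin 2) → ℝ,
      (∀ x : EuclideanSpace ℝ (Fin 2), (∀ i, 0 ≤ x i ∧ x i ≤ 1) → 0 ≤ t x ∧ t x ≤ 2) ∧
      ∀ p ∈ C, ∀ q ∈ C, |p 0 - q 0| + |p 1 - q 1| = |t p - t q| := by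
  rcases hC with hC | hC
  · refine ⟨fun x => x 0 + x 1, fun x hx => ⟨?_, ?_⟩, fun p hp q hq => ?_⟩
    · have := hx 0; have := hx 1; simp only; linarith
    · have := hx 0; have := hx 1; simp only; linarith
    · simp only
      rcases hC p hp q hq with ⟨h1, h2⟩ | ⟨h1, h2⟩
      · rw [abs_of_nonpos (by linarith), abs_of_nonpos (by linarith), abs_of_nonpos (by linarith)]
        ring
      · rw [abs_of_nonneg (by linarith), abs_of_nonneg (by linarith), abs_of_nonneg (by linarith)]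
        ring
  · refine ⟨fun x => x 0 + (1 - x 1), fun x hx => ⟨?_, ?_⟩, fun p hp q hq => ?_⟩
    · have := hx 0; have := hx 1; simp only; linarith
    · have := hx 0; have := hx 1; simp only; linarith
    · simp only
      rcases hC p hp q hq with ⟨h1, h2⟩ | ⟨h1, h2⟩
      · rw [abs_of_nonpos (by linarith), abs_of_nonneg (by linarith), abs_of_nonpos (by linarith)]
        ring
      · rw [abs_of_nonneg (by linarith), abs_of_nonpos (by linarith), abs_of_nonneg (by linarith)]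
        ring

theorem area_box (p q r : EuclideanSpace ℝ (Fin 2)) (d : ℝ)
    (h1 : |q 0 - p 0| + |q 1 - p 1| ≤ d) (h2 : |r 0 - p 0| + |r 1 - p 1| ≤ d) :
    area p q r ≤ d ^ 2 / 2 := by
  unfold area
  have h3 : |(q 0 - p 0) * (r 1 - p 1) - (q 1 - p 1) * (r 0 - p 0)| ≤
      |q 0 - p 0| * |r 1 - p 1| + |q 1 - p 1| * |r 0 - p 0| := by
    rw [← abs_mul, ← abs_mul]
    exact abs_sub _ _
  have a1 := abs_nonneg (q 0 - p 0)
  have a2 := abs_nonneg (q 1 - p 1)
  have a3 := abs_nonneg (r 0 - p 0)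
  have a4 := abs_nonneg (r 1 - p 1)
  have h4 : (|q 0 - p 0| + |q 1 - p 1|) * (|r 0 - p 0| + |r 1 - p 1|) ≤ d * d :=
    mul_le_mul h1 h2 (by positivity) (le_trans (by positivity) h1)
  nlinarith [mul_nonneg a1 a3, mul_nonneg a2 a4]

theorem chains (P : Finset (EuclideanSpace ℝ (Fin 2))) (hP : InSquare P) (h3 : 3 ≤ P.card)
    (k : ℕ) (hC : ChainCover P k) : Delta P ≤ 32 * ((k : ℝ) / P.card) ^ 2 := by
  classical
  obtain ⟨C, hC, hcov⟩ := hC
  obtain ⟨a, ha, b, hb, c, hc, hab, hac, hbc⟩ := Finset.two_lt_card.1 (by omega : 2 < P.card)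
  have hk : 1 ≤ k := by
    obtain ⟨j, _⟩ := hcov a ha
    have := j.2
    omega
  have hkr : (0 : ℝ) < k := by exact_mod_cast (by omega : 0 < k)
  have hnr : (0 : ℝ) < P.card := by exact_mod_cast (by omega : 0 < P.card)
  rcases Nat.lt_or_ge (2 * k) P.card with hlt | hge
  · choose t ht1 ht2 using fun j => chain_coord (C j) (hC j)
    have hj : ∀ x : EuclideanSpace ℝ (Fin 2), ∃ j : Fin k, x ∈ P → x ∈ C j := by
      intro x
      by_cases hx : x ∈ P
      · obtain ⟨j, hj⟩ := hcov x hx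
        exact ⟨j, fun _ => hj⟩
      · exact ⟨⟨0, by omega⟩, fun h => absurd h hx⟩
    choose j hj using hj
    obtain ⟨N, hN⟩ : ∃ N, N = (P.card - 1) / (2 * k) := ⟨_, rfl⟩
    have hN1 : 1 ≤ N := by
      rw [hN, Nat.le_div_iff_mul_le (by omega)]
      omega
    have hNu : 2 * k * N ≤ P.card - 1 := by
      rw [hN]
      exact Nat.mul_div_le _ _
    have hNl : P.card - 1 < 2 * k * (N + 1) := by
      rw [hN]
      exact Nat.lt_mul_div_succ _ (by omega)
    have hNr : (0 : ℝ) < N := by exact_mod_cast (by omega : 0 < N)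
    obtain ⟨y, _, hy⟩ := Finset.exists_lt_card_fiber_of_mul_lt_card_of_maps_to
      (s := P) (t := (Finset.univ : Finset (Fin k)) ×ˢ Finset.range N) (n := 2)
      (f := fun x => (j x, min ⌊t (j x) x * N / 2⌋₊ (N - 1)))
      (by
        intro x _
        simp only [Finset.mem_product, Finset.mem_univ, true_and, Finset.mem_range]
        omega)
      (by
        rw [Finset.card_product, Finset.card_univ, Fintype.card_fin, Finset.card_range]
        have : k * N * 2 = 2 * k * N := by ring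
        omega)
    obtain ⟨p, hp, q, hq, r, hr, hpq, hpr, hqr⟩ := Finset.two_lt_card.1 hy
    rw [Finset.mem_filter] at hp hq hr
    have close : ∀ x z : EuclideanSpace ℝ (Fin 2), x ∈ P → z ∈ P →
        (j x, min ⌊t (j x) x * N / 2⌋₊ (N - 1)) = y →
        (j z, min ⌊t (j z) z * N / 2⌋₊ (N - 1)) = y →
        |x 0 - z 0| + |x 1 - z 1| ≤ 2 / N := by
      intro x z hx hz h1 h2
      have e : (j x, min ⌊t (j x) x * N / 2⌋₊ (N - 1)) = (j z, min ⌊t (j z) z * N / 2⌋₊ (N - 1)) :=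
        h1.trans h2.symm
      rw [Prod.mk.injEq] at e
      obtain ⟨e1, e2⟩ := e
      rw [← e1] at e2
      have hxz : z ∈ C (j x) := by rw [e1]; exact hj z hz
      rw [ht2 (j x) x (hj x hx) z hxz]
      exact idx N hN1 _ _ (ht1 (j x) x (hP x hx)).1 (ht1 (j x) x (hP x hx)).2
        (ht1 (j x) z (hP z hz)).1 (ht1 (j x) z (hP z hz)).2 e2
    have h1 := delta_le hp.1 hq.1 hr.1 hpq hpr hqr
    have h2 := area_box p q r (2 / N) (close q p hq.1 hp.1 hq.2 hp.2)
      (close r p hr.1 hp.1 hr.2 hp.2)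
    refine (h1.trans h2).trans ?_
    have h4 : (P.card : ℝ) ≤ 4 * k * N := by
      have h5 : P.card ≤ 4 * k * N := by
        have : k * 1 ≤ k * N := Nat.mul_le_mul_left k hN1
        have e : 2 * k * (N + 1) = 2 * (k * N) + 2 * k := by ring
        have e2 : 4 * k * N = 4 * (k * N) := by ring
        rw [e] at hNl
        rw [e2]
        omega
      exact_mod_cast h5
    have h6 : 1 / (N : ℝ) ≤ 4 * (k / P.card) := by
      rw [← mul_div_assoc, div_le_div_iff₀ hNr hnr]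
      linarith
    obtain ⟨X, hX⟩ : ∃ X : ℝ, X = 1 / (N : ℝ) := ⟨_, rfl⟩
    obtain ⟨Y, hY⟩ : ∃ Y : ℝ, Y = (k : ℝ) / P.card := ⟨_, rfl⟩
    have hX0 : 0 ≤ X := by rw [hX]; positivity
    have e2 : (2 : ℝ) / N = 2 * X := by rw [hX]; ring
    rw [e2, ← hY]
    rw [← hX, ← hY] at h6
    nlinarith
  · have h1 := delta_le ha hb hc hab hac hbc
    have hb1 : ∀ x z : EuclideanSpace ℝ (Fin 2), x ∈ P → z ∈ P →
        |x 0 - z 0| + |x 1 - z 1| ≤ 2 := by
      intro x z hx hz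
      have e1 : |x 0 - z 0| ≤ 1 := by
        rw [abs_le]; constructor <;> linarith [(hP x hx 0).1, (hP x hx 0).2, (hP z hz 0).1,
          (hP z hz 0).2]
      have e2 : |x 1 - z 1| ≤ 1 := by
        rw [abs_le]; constructor <;> linarith [(hP x hx 1).1, (hP x hx 1).2, (hP z hz 1).1,
          (hP z hz 1).2]
      linarith
    have h2 := area_box a b c 2 (hb1 b a hb ha) (hb1 c a hc ha)
    have h4 : (1 : ℝ) / 2 ≤ k / P.card := by
      rw [div_le_div_iff₀ (by norm_num) hnr]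
      have : (P.card : ℝ) ≤ 2 * k := by exact_mod_cast hge
      linarith
    have h5 := pow_le_pow_left₀ (by positivity) h4 2
    linarith

/-- Let `P` be a set of `n ≥ 3` points in the plane.
(1) If a path of length at most `L` runs through the points of `P`, then
`Delta P ≤ (9/2) (L/n)^2`.
(2) If `P` lies in the unit square and is covered by `k` monotone chains, then
`Delta P ≤ 32 (k/n)^2`.
(3) In particular, if `P` lies in the unit square and is covered by at most `n^(ε/2)` monotone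
chains or has a path of length at most `n^(ε/2)`, then `Delta P ≤ 32 n^(-2+ε)`. -/
theorem result (P : Finset (EuclideanSpace ℝ (Fin 2))) (h3 : 3 ≤ P.card) :
    (∀ L : ℝ, PathThrough P L → Delta P ≤ 9 / 2 * (L / P.card) ^ 2) ∧
    (InSquare P → ∀ k : ℕ, ChainCover P k → Delta P ≤ 32 * ((k : ℝ) / P.card) ^ 2) ∧
    (InSquare P → ∀ ε : ℝ,
      ((∃ k : ℕ, (k : ℝ) ≤ (P.card : ℝ) ^ (ε / 2) ∧ ChainCover P k) ∨
        PathThrough P ((P.card : ℝ) ^ (ε / 2))) →
      Delta P ≤ 32 * (P.card : ℝ) ^ (-2 + ε)) := by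
  have hpath : ∀ L : ℝ, PathThrough P L → Delta P ≤ 9 / 2 * (L / P.card) ^ 2 := by
    rintro L ⟨p, hp1, hp2, hp3⟩
    exact path P P.card h3 p hp2 hp1 L hp3
  have hchain : InSquare P → ∀ k : ℕ, ChainCover P k → Delta P ≤ 32 * ((k : ℝ) / P.card) ^ 2 :=
    fun hP k hC => chains P hP h3 k hC
  have hnr : (0 : ℝ) < P.card := by exact_mod_cast (by omega : 0 < P.card)
  refine ⟨hpath, hchain, ?_⟩
  intro hP ε h
  have e : ((P.card : ℝ) ^ (ε / 2) / P.card) ^ 2 = (P.card : ℝ) ^ (-2 + ε) := by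
    rw [div_pow, ← Real.rpow_natCast ((P.card : ℝ) ^ (ε / 2)) 2, ← Real.rpow_mul hnr.le,
      ← Real.rpow_natCast (P.card : ℝ) 2, ← Real.rpow_sub hnr]
    congr 1
    push_cast
    ring
  have hpos : 0 < (P.card : ℝ) ^ (-2 + ε) := Real.rpow_pos_of_pos hnr _
  rcases h with ⟨k, hk, hC⟩ | h
  · refine (hchain hP k hC).trans ?_
    have h1 : (k : ℝ) / P.card ≤ (P.card : ℝ) ^ (ε / 2) / P.card :=
      div_le_div_of_nonneg_right hk hnr.le
    have h2 := pow_le_pow_left₀ (by positivity) h1 2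
    rw [e] at h2
    linarith
  · have h1 := hpath _ h
    rw [e] at h1
    linarith

end Vale.Agent.Results.P036.ChainsAndPaths
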